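import Vale.Agent.P216.Ch2.Ns
import Vale.Agent.P216.Ch2.H901.W4

/-!
# Block B44: natural operators (reversal) on the Wang data, and the generators of the free loops
-/

namespace Vale.Agent.P216.Ch2.H754B

open Vale.Agent.P216.Ch2.H901

variable {k : Type} [Field k]

/-- A natural operator on a persistence module. -/
structure PMOp (A : PM k) where
  r : ∀ t, 0 < t → A.V t →ₗ[k] A.V t
  nat : ∀ s t (hs : 0 < s) (h : s ≤ t) (ht : 0 < t) x,
    A.ρ s t hs h (r t ht x) = r s hs (A.ρ s t hs h x)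

/-- The operator on the compatible families. -/
def PMOp.fam {A : PM k} (O : PMOp A) (z : A.Fam) : A.Fam where
  z t ht := O.r t ht (z.z t ht)
  comp s t hs h := by rw [O.nat, z.comp]

theorem PM.Fam.ext' {A : PM k} {x y : A.Fam} (h : ∀ t ht, x.z t ht = y.z t ht) : x = y := by
  cases x
  cases y
  congr
  funext t ht
  exact h t ht

/-- The interleaving commutes with the operators, on the compatible families. -/
structure IntlOp {A B : PM k} {c : ℝ} (I : Intl A B c) (OA : PMOp A) (OB : PMOp B) : Prop where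
  f : ∀ (o : A.Fam) s t hs ht (h : s + c ≤ t),
    I.f s t hs h (OA.r t ht (o.z t ht)) = OB.r s hs (I.f s t hs h (o.z t ht))
  g : ∀ (o : B.Fam) s t hs ht (h : s + c ≤ t),
    I.g s t hs h (OB.r t ht (o.z t ht)) = OA.r s hs (I.g s t hs h (o.z t ht))

theorem IntlOp.symm {A B : PM k} {c : ℝ} {I : Intl A B c} {OA : PMOp A} {OB : PMOp B}
    (h : IntlOp I OA OB) : IntlOp I.symm OB OA := ⟨h.g, h.f⟩

/-- It is enough that `f s (s + c)` commutes with the operators. -/
theorem IntlOp.of_f {A B : PM k} {c : ℝ} (hc : 0 ≤ c) {I : Intl A B c} {OA : PMOp A} {OB : PMOp B}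
    (hf : ∀ s (hs : 0 < s) (ht : 0 < s + c) x,
      I.f s (s + c) hs le_rfl (OA.r (s + c) ht x) = OB.r s hs (I.f s (s + c) hs le_rfl x)) :
    IntlOp I OA OB := by
  have hF : ∀ (s t : ℝ) (hs : 0 < s) (ht : 0 < t) (h : s + c ≤ t) (x : A.V t),
      I.f s t hs h (OA.r t ht x) = OB.r s hs (I.f s t hs h x) := by
    intro s t hs ht h x
    have hs' : 0 < s + c := by linarith
    rw [← I.f_ρ hs hs' le_rfl h h, ← I.f_ρ hs hs' le_rfl h h x, OA.nat, hf]
  refine ⟨fun o s t hs ht h => hF s t hs ht h _, fun o s t hs ht h => ?_⟩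
  have h1 : 0 < s + c := by linarith
  -- the two families `OA (g o)` and `g (OB o)`
  have key : I.symm.fFam hc (OB.fam o) = OA.fam (I.symm.fFam hc o) := by
    refine PM.Fam.ext' fun s hs => ?_
    have h1 : 0 < s + c := by linarith
    have h2 : 0 < s + c + c := by linarith
    have e1 := I.gf s (s + c) (s + c + c) hs h1 le_rfl le_rfl (by linarith)
      ((I.symm.fFam hc (OB.fam o)).z _ h2)
    have e2 := I.gf s (s + c) (s + c + c) hs h1 le_rfl le_rfl (by linarith)
      ((OA.fam (I.symm.fFam hc o)).z _ h2)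
    rw [PM.Fam.comp] at e1 e2
    rw [← e1, ← e2]
    congr 1
    rw [I.f_f_fam hc (OB.fam o) h1 h2 le_rfl]
    change _ = I.f _ _ h1 le_rfl (OA.r _ h2 ((I.symm.fFam hc o).z _ h2))
    rw [hF, I.f_f_fam hc o h1 h2 le_rfl]
    rfl
  have e3 := I.symm.f_fam hc (OB.fam o) hs ht h
  have e4 := I.symm.f_fam hc o hs ht h
  change I.g s t hs h (OB.r t ht (o.z t ht)) = _ at e3
  change I.g s t hs h (o.z t ht) = _ at e4
  rw [e3, e4, key]
  rfl

/-- It is enough that `g s (s + c)` commutes with the operators. -/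
theorem IntlOp.of_g {A B : PM k} {c : ℝ} (hc : 0 ≤ c) {I : Intl A B c} {OA : PMOp A} {OB : PMOp B}
    (hg : ∀ s (hs : 0 < s) (ht : 0 < s + c) x,
      I.g s (s + c) hs le_rfl (OB.r (s + c) ht x) = OA.r s hs (I.g s (s + c) hs le_rfl x)) :
    IntlOp I OA OB :=
  (IntlOp.of_f (I := I.symm) hc hg).symm

/-- Operators on the Wang data. -/
structure WangOp {m : ℕ} {G X : ℕ → PM k} {c : ℝ} (w : Wang m G X c)
    (OG : ∀ q, PMOp (G q)) (OX : ∀ q, PMOp (X q)) where
  P : ∀ q, PMOp (w.P q)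
  Q : ∀ q, PMOp (w.Q q)
  α : ∀ q t ht x, w.α q t ht ((P q).r t ht x) = (OX q).r t ht (w.α q t ht x)
  β : ∀ q t ht x, w.β q t ht ((OX q).r t ht x) = (Q q).r t ht (w.β q t ht x)
  δ : ∀ q t ht x, w.δ q t ht ((Q q).r t ht x) = (P (q + 1)).r t ht (w.δ q t ht x)
  iQ : ∀ q, IntlOp (w.iQ q) (Q q) (OG q)
  iP : ∀ q, IntlOp (w.iP q) (P (q + (m + 1))) (OG q)

section Signs

variable {m : ℕ} {G X : ℕ → PM k} {B C B0 c B' : ℝ} {w : Wang m G X c} {b : Based m G B C B0}

/-- The classes `om j` are eventually nonzero, with explicit bound. -/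
theorem om_ne (b : Based m G B C B0) (hC : 0 ≤ C) (j : ℕ) (t : ℝ) (ht : 0 < t)
    (h : max B0 1 + j * C ≤ t) : (b.om j).z t ht ≠ 0 := by
  induction j generalizing t with
  | zero => exact b.om0 t ht (by
      have := le_max_left B0 1
      push_cast at h
      linarith)
  | succ j ih =>
    have h1 : (1 : ℝ) ≤ max B0 1 := le_max_right _ _
    have h2 : 0 ≤ (j : ℝ) * C := mul_nonneg (Nat.cast_nonneg _) hC
    have h3 : 0 < max B0 1 + j * C := by linarith
    refine b.up j _ t h3 ht ?_ (ih _ h3 le_rfl)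
    push_cast at h
    linarith

/-- The classes `om j` are eventually nonzero. -/
theorem exists_om_ne (b : Based m G B C B0) (j : ℕ) :
    ∃ T : ℝ, ∀ t (ht : 0 < t), T ≤ t → (b.om j).z t ht ≠ 0 := by
  induction j with
  | zero => exact ⟨B0, fun t ht h => b.om0 t ht h⟩
  | succ j ih =>
    obtain ⟨T, hT⟩ := ih
    refine ⟨max T 1 + C, fun t ht h => ?_⟩
    exact b.up j (max T 1) t (lt_max_of_lt_right one_pos) ht h
      (hT _ (lt_max_of_lt_right one_pos) (le_max_left _ _))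

variable (F : Free w b B') {OG : ∀ q, PMOp (G q)} {OX : ∀ q, PMOp (X q)} (O : WangOp w OG OX)
  {ε : ℕ → k} (hε : ∀ j t ht, (OG (m * j)).r t ht ((b.om j).z t ht) = ε j • (b.om j).z t ht)

include O hε in
/-- The sign is constant along nonzero structure constants. -/
theorem sign_eq_of_cf_ne (j : ℕ) (hj : F.cf (j + 1) ≠ 0) : ε (j + 1) = ε j := by
  obtain ⟨T, hT⟩ := exists_om_ne b j
  have hc := w.c0
  have hr : 0 < max T 1 := lt_max_of_lt_right one_pos
  have hs : 0 < max T 1 + c := by linarith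
  have ht : 0 < max T 1 + c + c := by linarith
  have h1 := F.th j (max T 1) (max T 1 + c) (max T 1 + c + c) hr hs ht le_rfl le_rfl
  have h2 := congrArg ((OG (m * j)).r (max T 1) hr) h1
  have hκ := w.κ_eq b (j + 1) hs ht le_rfl
  rw [hκ] at h1 h2
  have e1 := (O.iP (m * j)).f (w.dκ' b j) _ _ hr hs le_rfl
  have e2 : (w.iP (m * j)).f (max T 1) (max T 1 + c) hr le_rfl
      (w.δ (m * (j + 1)) _ hs ((w.κ b (j + 1)).z _ hs)) =
      (w.iP (m * j)).f (max T 1) (max T 1 + c) hr le_rfl ((w.dκ' b j).z _ hs) := rfl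
  rw [e2] at h1 h2
  rw [← e1] at h2
  have h3 := (O.δ (m * (j + 1)) (max T 1 + c) hs ((w.κ b (j + 1)).z _ hs)).symm
  have e3 : (O.P (m * j + (m + 1))).r _ hs ((w.dκ' b j).z _ hs) =
      w.δ (m * (j + 1)) (max T 1 + c) hs
        ((O.Q (m * (j + 1))).r _ hs ((w.κ b (j + 1)).z _ hs)) := h3
  rw [e3] at h2
  have e4 := (O.iQ (m * (j + 1))).g (b.om (j + 1)) _ _ hs ht le_rfl
  rw [hε, map_smul, hκ] at e4
  rw [← e4, map_smul] at h2
  have e5 : w.δ (m * (j + 1)) (max T 1 + c) hs ((w.κ b (j + 1)).z _ hs) = (w.dκ' b j).z _ hs := rfl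
  rw [e5] at h2
  have e6 := (w.iP (m * j)).f (max T 1) (max T 1 + c) hr le_rfl |>.map_smul (ε (j + 1))
    ((w.dκ' b j).z _ hs)
  have h2' : ε (j + 1) • (w.iP (m * j)).f (max T 1) (max T 1 + c) hr le_rfl
      ((w.dκ' b j).z _ hs) = (OG (m * j)).r (max T 1) hr (F.cf (j + 1) • (b.om j).z _ hr) :=
    e6.symm.trans h2
  rw [h1, map_smul, hε, smul_smul, smul_smul] at h2'
  have h4 : (ε (j + 1) * F.cf (j + 1) - F.cf (j + 1) * ε j) • (b.om j).z (max T 1) hr = 0 := by
    rw [sub_smul, h2', sub_self]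
  rcases smul_eq_zero.1 h4 with h5 | h5
  · have : F.cf (j + 1) * (ε (j + 1) - ε j) = 0 := by linear_combination h5
    rcases mul_eq_zero.1 this with h6 | h6
    · exact absurd h6 hj
    · exact sub_eq_zero.1 h6
  · exact absurd h5 (hT _ hr (le_max_left _ _))

include O hε in
/-- The sign of the operator on `y j`. -/
theorem op_y (j : ℕ) (t : ℝ) (ht : 0 < t) :
    (OX (m * j + (m + 1))).r t ht ((F.y j).z t ht) = ε j • (F.y j).z t ht := by
  have hc := w.c0
  have ht' : 0 < t + c := by linarith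
  rw [F.y_def j t (t + c) ht ht' le_rfl, ← O.α, ← (O.iP (m * j)).g (b.om j) _ _ ht ht' le_rfl, hε,
    map_smul, map_smul]

include O hε in
/-- The sign of the operator on `x j`. -/
theorem op_x (hB' : 0 ≤ B') (j : ℕ) (t : ℝ) (ht : 0 < t) :
    (OX (m * j)).r t ht ((F.x j).z t ht) = ε j • (F.x j).z t ht := by
  by_cases hj : F.cf j = 0
  · obtain ⟨a, ha⟩ := (F.line_x j).fam hB' ((OX (m * j)).fam (F.x j))
    obtain ⟨T, hT⟩ := exists_om_ne b j
    have hc := w.c0
    have hs : 0 < max T 1 := lt_max_of_lt_right one_pos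
    have ht1 : 0 < max T 1 + c := by linarith
    have h1 := F.x_om j hj (max T 1) (max T 1 + c) hs ht1 le_rfl
    have h2 := congrArg ((OG (m * j)).r (max T 1) hs) h1
    have e1 := (O.iQ (m * j)).f ((F.x j).map (fun t ht => w.β (m * j) t ht)
      (fun s t hs ht h x => w.β_nat _ s t hs ht h x)) _ _ hs ht1 le_rfl
    change (w.iQ (m * j)).f _ _ hs le_rfl ((O.Q (m * j)).r _ ht1 (w.β _ _ ht1 ((F.x j).z _ ht1))) =
      (OG (m * j)).r _ hs ((w.iQ (m * j)).f _ _ hs le_rfl (w.β _ _ ht1 ((F.x j).z _ ht1))) at e1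
    rw [← e1, ← O.β, hε] at h2
    have h3 := ha (max T 1 + c) ht1
    change (OX (m * j)).r _ ht1 ((F.x j).z _ ht1) = _ at h3
    rw [h3, map_smul, map_smul, h1] at h2
    have h4 : (a - ε j) • (b.om j).z (max T 1) hs = 0 := by rw [sub_smul, h2, sub_self]
    rcases smul_eq_zero.1 h4 with h5 | h5
    · rw [sub_eq_zero] at h5
      have h6 := ha t ht
      rw [h5] at h6
      exact h6
    · exact absurd h5 (hT _ hs (le_max_left _ _))
  · rw [F.x_zero j hj t ht, map_zero, smul_zero]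

end Signs

end Vale.Agent.P216.Ch2.H754B
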