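import Vale.Agent.P216.Ch2.Ns
import Vale.Agent.P216.Ch2.MV337.Main
import Vale.Agent.P216.Ch2.H754B.Wop

/-!
# Block B44: reversal of Moore loops, and its compatibility with the trivialisations
-/

open Set BoundedContinuousFunction

namespace Vale.Agent.P216.Ch2.H754B

open Vale.Agent.P216.AS Vale.Agent.P216.Ch2.AS Vale.Agent.P216.Ch2.H901 Vale.Agent.P216.PS Vale.Agent.P216.MV337 Vale.Agent.P216.Ch2.MV337
open Vale.Agent.P216.MV337.Tr (htA htB)

section rv

variable {M : Type} [MetricSpace M]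

/-- Reversal of curves in time `t`. -/
noncomputable def rv (t : ℝ) (w : ℝ →ᵇ M) : ℝ →ᵇ M :=
  w.compContinuous ⟨fun u => t - u, by fun_prop⟩

@[simp] theorem rv_apply (t : ℝ) (w : ℝ →ᵇ M) (u : ℝ) : rv t w u = w (t - u) := rfl

variable {a b : M} {s t : ℝ} {w w' : ℝ →ᵇ M} {D D' : Set M}

theorem lip_rv (hw : Lip w) (t : ℝ) : Lip (rv t w) := fun u v => by
  rw [rv_apply, rv_apply]
  refine (hw _ _).trans (le_of_eq ?_)
  rw [abs_sub_comm]
  congr 1
  ring

theorem rv_mem_P (hw : w ∈ P a b s) (hst : s ≤ t) : rv t w ∈ P b a t :=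
  ⟨lip_rv hw.1 t, fun u hu => by
    rw [rv_apply]
    exact hw.2.2 _ (by linarith), fun u hu => by
    rw [rv_apply]
    exact hw.2.1 _ (by linarith)⟩

theorem rv_zero (hw : w ∈ FL M s) (hst : s ≤ t) : rv t w 0 = w 0 := by
  rw [rv_apply]
  exact hw.2.2 _ (by linarith)

theorem rv_mem_FL (hw : w ∈ FL M s) (hst : s ≤ t) : rv t w ∈ FL M t := by
  have h := rv_zero hw hst
  refine ⟨lip_rv hw.1 t, fun u hu => ?_, fun u hu => ?_⟩
  · rw [h, rv_apply]
    exact hw.2.2 _ (by linarith)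
  · rw [h, rv_apply]
    exact hw.2.1 _ (by linarith)

theorem rv_mem_ovr (hw : w ∈ ovr evz (fun t => FL M t) D s) (hst : s ≤ t) :
    rv t w ∈ ovr evz (fun t => FL M t) D t :=
  ⟨rv_mem_FL hw.1 hst, by
    change rv t w 0 ∈ D
    rw [rv_zero hw.1 hst]
    exact hw.2⟩

theorem dist_rv_le (t : ℝ) (w w' : ℝ →ᵇ M) : dist (rv t w) (rv t w') ≤ dist w w' := by
  rw [BoundedContinuousFunction.dist_le dist_nonneg]
  intro u
  rw [rv_apply, rv_apply]
  exact BoundedContinuousFunction.dist_coe_le_dist (f := w) (g := w') (t - u)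

theorem dist_rv_rv (hw : Lip w) (s t : ℝ) : dist (rv s w) (rv t w) ≤ |s - t| := by
  rw [BoundedContinuousFunction.dist_le (abs_nonneg _)]
  intro u
  rw [rv_apply, rv_apply]
  refine (hw _ _).trans (le_of_eq ?_)
  congr 1
  ring

theorem dist_rv_lt (hw : Lip w) (s t : ℝ) (w' : ℝ →ᵇ M) :
    dist (rv s w) (rv t w') ≤ |s - t| + dist w w' :=
  (dist_triangle _ (rv t w) _).trans (add_le_add (dist_rv_rv hw s t) (dist_rv_le t w w'))

theorem map_rv {A B : Set (ℝ →ᵇ M)} (t : ℝ) (hm : MapsTo (rv t) A B) :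
    IsMap (tr (ℝ →ᵇ M)) (tr (ℝ →ᵇ M)) A B (rv t) where
  mapsX := hm
  eqv i := i.elim
  uc ε hε := ⟨ε, hε, fun x _ y _ h => (dist_rv_le t x y).trans_lt h⟩

/-- The homotopy between the reversals in the times `s` and `t`. -/
theorem htpy_rv {A B : Set (ℝ →ᵇ M)} (hst : s ≤ t) (hA : ∀ w ∈ A, Lip w)
    (hm : ∀ σ, s ≤ σ → σ ≤ t → MapsTo (rv σ) A B) :
    IsHtpy (tr (ℝ →ᵇ M)) (tr (ℝ →ᵇ M)) A B (fun l => rv (s + l * (t - s))) := by
  refine ⟨fun l hl => ?_, fun _ _ i => i.elim, fun ε hε => ?_⟩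
  · exact hm _ (tm_aux hst hl).1 (tm_aux hst hl).2
  · have h0 : 0 < t - s + 1 := by linarith
    refine ⟨min (ε / 2 / (t - s + 1)) (ε / 2), lt_min (by positivity) (by positivity),
      fun l _ l' _ x hx y _ hl hxy => ?_⟩
    refine (dist_rv_lt (hA x hx) _ _ y).trans_lt ?_
    have h1 := hl.trans_le (min_le_left _ _)
    have h2 := hxy.trans_le (min_le_right _ _)
    have h3 : |s + l * (t - s) - (s + l' * (t - s))| ≤ |l - l'| * (t - s + 1) := by
      have e : s + l * (t - s) - (s + l' * (t - s)) = (l - l') * (t - s) := by ring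
      rw [e, abs_mul, abs_of_nonneg (sub_nonneg.2 hst)]
      exact mul_le_mul_of_nonneg_left (by linarith) (abs_nonneg _)
    have h4 : |l - l'| * (t - s + 1) < ε / 2 := by
      rw [lt_div_iff₀ h0] at h1
      exact h1
    linarith

theorem htpy_rv_zero (w : ℝ →ᵇ M) : rv (s + 0 * (t - s)) w = rv s w := by
  rw [zero_mul, add_zero]

theorem htpy_rv_one (w : ℝ →ᵇ M) : rv (s + 1 * (t - s)) w = rv t w := by
  rw [one_mul, add_sub_cancel]

/-- **Reversal of the free loops.** -/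
noncomputable def evOp : EvOp (evz (M := M)) (fun t => FL M t) where
  r := rv
  map t _ := map_rv t fun _ hw => rv_mem_FL hw le_rfl
  ev_r _ _ _ hw := rv_zero hw le_rfl
  nat s t hs hst := ⟨fun l => rv (s + l * (t - s)), htpy_rv hst (fun _ hw => hw.1)
    (fun _ h1 h2 _ hw => FL_mono h2 (rv_mem_FL hw h1)),
    fun _ hl _ hw => rv_zero hw (tm_aux hst hl).1, fun w _ => htpy_rv_zero w,
    fun w _ => htpy_rv_one w⟩

/-- **Reversal of the based loops.** -/
noncomputable def opP (x₀ : M) : SpOp (fun t => P x₀ x₀ t) (fun _ => ∅) where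
  r := rv
  map t _ := map_rv t fun _ hw => rv_mem_P hw le_rfl
  sub _ _ := mapsTo_empty _ _
  nat s t _ hst := ⟨fun l => rv (s + l * (t - s)), htpy_rv hst (fun _ hw => hw.1)
    (fun _ h1 h2 _ hw => P_mono h2 (rv_mem_P hw h1)), fun _ _ => mapsTo_empty _ _,
    fun w _ => htpy_rv_zero w, fun w _ => htpy_rv_one w⟩

end rv

section cut

variable {M : Type} [MetricSpace M] [CompactSpace M] {x₀ : M} {ℓ : ℝ} {T : M → ℝ → M} {D : Set M}
  {t : ℝ} {w : ℝ →ᵇ M}

/-- **Cutting commutes with the reversal.** -/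
theorem cut_rv (h : MV337.Tr D x₀ ℓ T) (ht : 0 ≤ t) (hw : w ∈ FLD D t) :
    rv (t + 2 * ℓ) (cut T ℓ t w) = cut T ℓ t (rv t w) := by
  have hn := h.nonneg
  have h0 : rv t w 0 = w 0 := rv_zero hw.1 le_rfl
  have hT := h.lip _ hw.2
  have e0 : w 0 = T (w 0) 0 := (h.left _ hw.2 0 le_rfl).symm
  have e1 : w t = T (w 0) 0 := (hw.1.2.2 t le_rfl).trans e0
  have l1 : Lip (cj ℓ t (T (w 0)) w) := lip_cj hT hw.1.1 ht e0 e1
  have f0 : rv t w 0 = T (w 0) 0 := h0.trans e0
  have f1 : rv t w t = T (w 0) 0 := by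
    rw [rv_apply, sub_self]
    exact e0
  have l2 : Lip (cj ℓ t (T (w 0)) (rv t w)) := lip_cj hT (lip_rv hw.1.1 t) ht f0 f1
  have c1 : cut T ℓ t w = mo (cj ℓ t (T (w 0)) w) := rfl
  have c2 : cut T ℓ t (rv t w) = mo (cj ℓ t (T (w 0)) (rv t w)) := by
    change mo (cj ℓ t (T (rv t w 0)) (rv t w)) = _
    rw [h0]
  ext u
  rw [c1, c2, rv_apply, l1.mo_apply, l2.mo_apply]
  rcases le_total u ℓ with h1 | h1
  · rw [cj_three e0 ht e1 (by linarith), cj_one h1]
    congr 1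
    ring
  rcases le_total u (ℓ + t) with h2 | h2
  · rw [cj_two e0 (by linarith) (by linarith), cj_two f0 h1 h2, rv_apply]
    congr 1
    ring
  · rw [cj_one (by linarith), cj_three f0 ht f1 h2]
    congr 1
    ring

/-- **Going back commutes with the reversal.** -/
theorem back_rv (h : MV337.Tr D x₀ ℓ T) (ht : 0 ≤ t) {x : M} (hx : x ∈ D) {v : ℝ →ᵇ M}
    (hv : v ∈ P x₀ x₀ t) : rv (t + 2 * ℓ) (back T ℓ t (x, v)) = back T ℓ t (x, rv t v) := by
  have hn := h.nonneg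
  have hT := h.liprev hx
  have e : T x (ℓ - 0) = x₀ := by
    rw [sub_zero]
    exact h.right _ hx _ le_rfl
  have e0 : v 0 = T x (ℓ - 0) := by
    rw [e, eq_left hv le_rfl]
  have e1 : v t = T x (ℓ - 0) := by
    rw [e, eq_right hv le_rfl]
  have l1 : Lip (cj ℓ t (fun u => T x (ℓ - u)) v) := lip_cj hT hv.1 ht e0 e1
  have f0 : rv t v 0 = T x (ℓ - 0) := by
    rw [rv_apply, sub_zero]
    exact e1
  have f1 : rv t v t = T x (ℓ - 0) := by
    rw [rv_apply, sub_self]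
    exact e0
  have l2 : Lip (cj ℓ t (fun u => T x (ℓ - u)) (rv t v)) := lip_cj hT (lip_rv hv.1 t) ht f0 f1
  have c1 : back T ℓ t (x, v) = mo (cj ℓ t (fun u => T x (ℓ - u)) v) := rfl
  have c2 : back T ℓ t (x, rv t v) = mo (cj ℓ t (fun u => T x (ℓ - u)) (rv t v)) := rfl
  ext u
  rw [c1, c2, rv_apply, l1.mo_apply, l2.mo_apply]
  rcases le_total u ℓ with h1 | h1
  · rw [cj_three e0 ht e1 (by linarith), cj_one h1]
    congr 1
    ring
  rcases le_total u (ℓ + t) with h2 | h2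
  · rw [cj_two e0 (by linarith) (by linarith), cj_two f0 h1 h2, rv_apply]
    congr 1
    ring
  · rw [cj_one (by linarith), cj_three f0 ht f1 h2]
    congr 1
    ring

end cut

theorem cuM_enc {E E' : Type} [MetricSpace E] [MetricSpace E'] (f : E → E') (n : ℕ) (e : E)
    (y : Fin n → ℝ) : cuM f n (enc n e y) = enc n (f e) y := by
  induction n with
  | zero => rfl
  | succ n ih =>
    change (cuM f n (enc n e (Fin.init y)), y (Fin.last n)) = _
    rw [ih]
    rfl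

/-- **The reversals commute with the trivialisations.** -/
noncomputable def trivOp {M : Type} [MetricSpace M] [CompactSpace M] {x₀ : M} {ℓ : ℝ} {m : ℕ}
    (C : Caps (m + 1) M x₀) {Tp Tm : M → ℝ → M} (hp : MV337.Tr C.Dp x₀ ℓ Tp)
    (hm : MV337.Tr C.Dm x₀ ℓ Tm) : TrivOp (trivOf C hp hm) where
  oX := evOp
  oOm := opP x₀
  tm t ht w hw := cut_rv hm ht.le hw
  tp t ht w hw := by
    change cuM (rv (t + 2 * ℓ)) (m + 1) (enc (m + 1) (cut Tp ℓ t w) (C.φ (w 0))) =
      enc (m + 1) (cut Tp ℓ t (rv t w)) (C.φ (rv t w 0))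
    rw [cuM_enc, cut_rv hp ht.le hw, rv_zero hw.1 le_rfl]

end Vale.Agent.P216.Ch2.H754B
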