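import Vale.Agent.P216.Ch2.Ns
import Vale.Agent.P216.Ch2.H754B.Gen
import Vale.Agent.P216.B64.Contract

/-!
# The generators of the free loops in characteristic `2`, odd dimension
-/

namespace Vale.Agent.P216.Ch2.H754B

open Vale.Agent.P216.Ch2.H901 Vale.Agent.P216.B64

variable {k : Type} [Field k]

/-- **The output at the level of persistence modules.** -/
structure PMOut (n : ℕ) (X : ℕ → PM k) (OX : ∀ q, PMOp (X q)) (B : ℝ) where
  g : ∀ q, (X q).Fam
  line : ∀ q, (X q).Line (g q) B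
  g_zero : ∀ q, ¬ Deg n q → ∀ t ht, (g q).z t ht = 0
  rev : ∀ q t ht, (OX q).r t ht ((g q).z t ht) = (g q).z t ht
  birth0 : ∀ t ht, B ≤ t → (g (kk n 0 * (n - 1))).z t ht ≠ 0
  birth : ∀ i s t hs ht, s + B ≤ t → (g (kk n i * (n - 1))).z s hs ≠ 0 →
    (g (kk n (i + 1) * (n - 1))).z t ht ≠ 0
  xy : ∀ i s t hs ht, s + B ≤ t → (g (kk n i * (n - 1))).z s hs ≠ 0 →
    (g (kk n i * (n - 1) + 1)).z t ht ≠ 0
  yx : ∀ i s t hs ht, s + B ≤ t → (g (kk n i * (n - 1) + 1)).z s hs ≠ 0 →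
    (g (kk n i * (n - 1))).z t ht ≠ 0

theorem PM.Fam.ne_mono {A : PM k} (o : A.Fam) {s t : ℝ} (hs : 0 < s) (ht : 0 < t) (h : s ≤ t)
    (hne : o.z s hs ≠ 0) : o.z t ht ≠ 0 := by
  intro h0
  apply hne
  rw [← o.comp s t hs h, h0, map_zero]

section

variable {m : ℕ} {G X : ℕ → PM k} {B C B0 c B' : ℝ} {w : Wang m G X c} {b : Based m G B C B0}

/-- **The births of the classes `y j`.** -/
theorem y_ne (F : Free w b B') (hB : 0 ≤ B) (j : ℕ) (hcf : F.cf (j + 1) = 0) {s t : ℝ}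
    (hs : 0 < s) (ht : 0 < t) (h : s + (B + 5 * c) ≤ t) (hne : (b.om j).z s hs ≠ 0) :
    (F.y j).z t ht ≠ 0 := by
  have hc := w.c0
  intro h0
  apply hne
  have h1 : 0 < s + c := by linarith
  have h2 : 0 < s + c + c := by linarith
  have h3 : 0 < s + c + c + c := by linarith
  have h4 : 0 < s + c + c + c + c := by linarith
  have h5 : 0 < t + c := by linarith
  have e1 : w.α _ t ht ((w.κP b j).z t ht) = 0 := by
    rw [← w.κP_eq b j ht h5 le_rfl, ← F.y_def j t (t + c) ht h5 le_rfl, h0]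
  obtain ⟨z, hz⟩ := (w.ex3 (m * (j + 1)) t ht _).1 e1
  obtain ⟨a, ha⟩ := w.Q_line b hB (j + 1) (s + c + c + c) t h3 (by linarith) (by linarith) z
  have e2 : (w.dκ' b j).z (s + c) h1 = 0 := by
    have h6 := (w.iP (m * j)).gf (s + c) (s + c + c) (s + c + c + c) h1 h2 le_rfl le_rfl
      (by linarith) ((w.dκ' b j).z _ h3)
    rw [(w.dκ' b j).comp] at h6
    rw [← h6]
    have h7 := F.th j (s + c + c) (s + c + c + c) (s + c + c + c + c) h2 h3 h4 le_rfl le_rfl
    rw [w.κ_eq b (j + 1) h3 h4 le_rfl, hcf, zero_smul] at h7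
    have h8 : (w.iP (m * j)).f (s + c + c) (s + c + c + c) h2 le_rfl ((w.dκ' b j).z _ h3) = 0 := h7
    rw [h8, map_zero]
  have e3 : (w.κP b j).z (s + c + c + c) h3 = a • (w.dκ' b j).z (s + c + c + c) h3 := by
    rw [← (w.κP b j).comp _ t h3 (by linarith)]
    have h6 := w.δ_nat (m * (j + 1)) _ t h3 ht (by linarith) z
    rw [ha, map_smul] at h6
    rw [← hz]
    exact h6
  have e4 : (w.κP b j).z (s + c) h1 = 0 := by
    rw [← (w.κP b j).comp (s + c) (s + c + c + c) h1 (by linarith), e3, map_smul,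
      (w.dκ' b j).comp, e2, smul_zero]
  have e5 := (w.iP (m * j)).f_f_fam w.c0 (b.om j) hs h1 le_rfl
  have e6 : (w.iP (m * j)).f s (s + c) hs le_rfl ((w.κP b j).z (s + c) h1) = (b.om j).z s hs := e5
  rw [← e6, e4, map_zero]

theorem om_ne_of_y (F : Free w b B') (j : ℕ) {s t : ℝ} (hs : 0 < s) (ht : 0 < t)
    (h : s + c ≤ t) (hne : (F.y j).z s hs ≠ 0) : (b.om j).z t ht ≠ 0 := by
  intro h0
  apply hne
  rw [F.y_def j s t hs ht h, h0, map_zero, map_zero]

/-- The property of the generator in degree `q`. -/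
structure GQ (F : Free w b B') (OX : ∀ q, PMOp (X q)) (q : ℕ) (g : (X q).Fam) : Prop where
  line : (X q).Line g B'
  s : ∀ t ht, (OX q).r t ht (g.z t ht) = g.z t ht
  bx : ∀ j, q = m * j → ∀ s t hs ht, s + B' ≤ t → (b.om j).z s hs ≠ 0 → g.z t ht ≠ 0
  bo : ∀ j, q = m * j → ∀ s t hs ht, s + B' ≤ t → g.z s hs ≠ 0 → (b.om j).z t ht ≠ 0
  yx : ∀ j, q = m * j + (m + 1) → ∀ s t hs ht, s + (B + 5 * c) ≤ t → (b.om j).z s hs ≠ 0 →
    g.z t ht ≠ 0
  yo : ∀ j, q = m * j + (m + 1) → ∀ s t hs ht, s + c ≤ t → g.z s hs ≠ 0 → (b.om j).z t ht ≠ 0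
  z0 : (∀ j, q ≠ m * j) → (∀ j, q ≠ m * j + (m + 1)) → ∀ t ht, g.z t ht = 0

theorem exists_GQ (hm : 2 ≤ m) (hB : 0 ≤ B) (hB' : 0 ≤ B') (F : Free w b B')
    {OG : ∀ q, PMOp (G q)} {OX : ∀ q, PMOp (X q)} (O : WangOp w OG OX)
    (hε : ∀ j t ht, (OG (m * j)).r t ht ((b.om j).z t ht) = (b.om j).z t ht)
    (hcf : ∀ j, F.cf j = 0) (q : ℕ) : ∃ g : (X q).Fam, GQ F OX q g := by
  have hε' : ∀ j t ht, (OG (m * j)).r t ht ((b.om j).z t ht) = (1 : k) • (b.om j).z t ht :=
    fun j t ht => by rw [hε, one_smul]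
  by_cases h1 : ∃ j, q = m * j
  · obtain ⟨j, rfl⟩ := h1
    have hj : ∀ i, m * j = m * i → i = j := fun i hi =>
      (Nat.eq_of_mul_eq_mul_left (by omega) hi).symm
    refine ⟨F.x j, ⟨F.line_x j, ?_, ?_, ?_, ?_, ?_, ?_⟩⟩
    · intro t ht
      rw [op_x F O (ε := fun _ => 1) hε' hB' j t ht, one_smul]
    · intro i hi
      rw [hj i hi]
      exact F.x_ne j (hcf j)
    · intro i hi
      rw [hj i hi]
      exact F.om_ne j
    · intro i hi
      exact absurd (Dvd.intro _ hi) (not_dvd_y hm i)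
    · intro i hi
      exact absurd (Dvd.intro _ hi) (not_dvd_y hm i)
    · intro hi
      exact absurd rfl (hi j)
  · by_cases h2 : ∃ j, q = m * j + (m + 1)
    · obtain ⟨j, rfl⟩ := h2
      have hj : ∀ i, m * j + (m + 1) = m * i + (m + 1) → i = j := fun i hi =>
        (Nat.eq_of_mul_eq_mul_left (by omega) (Nat.add_right_cancel hi)).symm
      refine ⟨F.y j, ⟨F.line_y j, ?_, ?_, ?_, ?_, ?_, ?_⟩⟩
      · intro t ht
        rw [op_y F O (ε := fun _ => 1) hε' j t ht, one_smul]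
      · intro i hi
        exact absurd ⟨i, hi⟩ h1
      · intro i hi
        exact absurd ⟨i, hi⟩ h1
      · intro i hi s t hs ht h hne
        rw [hj i hi] at hne
        exact y_ne F hB j (hcf _) hs ht h hne
      · intro i hi s t hs ht h hne
        rw [hj i hi]
        exact om_ne_of_y F j hs ht h hne
      · intro _ hi
        exact absurd rfl (hi j)
    · have h3 : ¬ m ∣ q := fun ⟨j, hj⟩ => h1 ⟨j, hj⟩
      have h4 : ∀ j, q ≠ m * j + (m + 1) := fun j hj => h2 ⟨j, hj⟩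
      refine ⟨PM.Fam.zero _, ⟨?_, ?_, ?_, ?_, ?_, ?_, ?_⟩⟩
      · intro s t hs h hb x
        exact ⟨0, by rw [F.eph q h3 h4 s t hs h hb x, zero_smul]⟩
      · intro t ht
        exact map_zero _
      · intro i hi
        exact absurd ⟨i, hi⟩ h1
      · intro i hi
        exact absurd ⟨i, hi⟩ h1
      · intro i hi
        exact absurd ⟨i, hi⟩ h2
      · intro i hi
        exact absurd ⟨i, hi⟩ h2
      · intro _ _ t ht
        rfl

/-- **The generators in all degrees.** -/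
theorem nonempty_PMOut {n : ℕ} (hn : 3 ≤ n) (hodd : n % 2 = 1) (hm : m = n - 1) (hB : 0 ≤ B)
    (hC : 0 ≤ C) (hB' : 0 ≤ B') (F : Free w b B') {OG : ∀ q, PMOp (G q)}
    {OX : ∀ q, PMOp (X q)} (O : WangOp w OG OX)
    (hε : ∀ j t ht, (OG (m * j)).r t ht ((b.om j).z t ht) = (b.om j).z t ht)
    (hcf : ∀ j, F.cf j = 0) :
    Nonempty (PMOut n X OX (max B0 1 + 2 * C + 2 * B' + (B + 5 * c))) := by
  have hm2 : 2 ≤ m := by omega
  have hc := w.c0
  choose g hg using exists_GQ hm2 hB hB' F O hε hcf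
  have hmax : (1 : ℝ) ≤ max B0 1 := le_max_right _ _
  have hkk : ∀ i, kk n i = i + 1 := fun i => by simp [kk, hodd]
  have hx : ∀ i, kk n i * (n - 1) = m * (i + 1) := fun i => by rw [hm, mul_comm, hkk]
  have hy : ∀ i, kk n i * (n - 1) + 1 = m * i + (m + 1) := fun i => by
    rw [hx]
    ring
  refine ⟨⟨g, fun q => ((hg q).line).mono (by nlinarith), ?_, fun q => (hg q).s, ?_, ?_, ?_, ?_⟩⟩
  · -- the degrees without generator
    intro q hq
    by_cases h1 : ∃ j, q = m * j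
    · obtain ⟨j, hj⟩ := h1
      have hj0 : j ≠ 0 := by
        rintro rfl
        exact hq (Or.inl (by rw [hj, mul_zero]))
      exfalso
      apply hq
      refine Or.inr ⟨j - 1, Or.inl ?_⟩
      rw [hx, hj]
      congr 1
      omega
    · by_cases h2 : ∃ j, q = m * j + (m + 1)
      · obtain ⟨j, hj⟩ := h2
        exact absurd (Or.inr ⟨j, Or.inr (by rw [hy, hj])⟩) hq
      · exact (hg q).z0 (fun j hj => h1 ⟨j, hj⟩) fun j hj => h2 ⟨j, hj⟩
  · intro t ht h
    have hpos : 0 < max B0 1 + 1 * C := by linarith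
    refine (hg _).bx (0 + 1) (hx 0) (max B0 1 + 1 * C) t hpos ht (by linarith) ?_
    exact om_ne b hC 1 _ hpos (by push_cast; linarith)
  · intro i s t hs ht h hne
    have h1 : 0 < s + B' := by linarith
    have e1 := (hg _).bo (i + 1) (hx i) s (s + B') hs h1 le_rfl hne
    have h3 : 0 < s + B' + C := by linarith
    have e2 := b.up (i + 1) (s + B') (s + B' + C) h1 h3 le_rfl e1
    exact (hg _).bx (i + 1 + 1) (hx (i + 1)) (s + B' + C) t h3 ht (by linarith) e2
  · intro i s t hs ht h hne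
    have h1 : 0 < s + B' := by linarith
    have e1 := (hg _).bo (i + 1) (hx i) s (s + B') hs h1 le_rfl hne
    have h3 : 0 < s + B' + C := by linarith
    have e2 : (b.om i).z (s + B' + C) h3 ≠ 0 := fun h0 =>
      e1 (b.down i (s + B') (s + B' + C) h1 h3 le_rfl h0)
    exact (hg _).yx i (hy i) (s + B' + C) t h3 ht (by linarith) e2
  · intro i s t hs ht h hne
    have h1 : 0 < s + c := by linarith
    have e1 := (hg _).yo i (hy i) s (s + c) hs h1 le_rfl hne
    have h3 : 0 < s + c + C := by linarith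
    have e2 := b.up i (s + c) (s + c + C) h1 h3 le_rfl e1
    exact (hg _).bx (i + 1) (hx i) (s + c + C) t h3 ht (by linarith) e2

end

end Vale.Agent.P216.Ch2.H754B
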