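import Vale.Agent.P216.Ch2.Ns
import Vale.Agent.P216.Ch2.H456.PCon
import Vale.Agent.P216.Ch2.H754B.Rev

/-!
# Block B43/B44: the structure constants of the path fibration are not zero; the class `om 0`
-/

open Set BoundedContinuousFunction

namespace Vale.Agent.P216.Ch2.H754B

open Vale.Agent.P216.AS Vale.Agent.P216.Ch2.AS Vale.Agent.P216.Ch2.H901 Vale.Agent.P216.PS Vale.Agent.P216.MV337 Vale.Agent.P216.Ch2.MV337
open Vale.Agent.P216.Ch2.H456

section

variable {M : Type} [MetricSpace M] [CompactSpace M] {x₀ : M} {ℓ : ℝ} {m : ℕ}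
  {k : Type} [Field k] {B C' B0 B' : ℝ}

/-- **The structure constants of the path fibration are not zero.** -/
theorem pw_cf_ne (hm : 1 ≤ m) (C : Caps (m + 1) M x₀) {Tp Tm : M → ℝ → M}
    (hp : MV337.Tr C.Dp x₀ ℓ Tp) (hq : MV337.Tr C.Dm x₀ ℓ Tm) (h2 : Ok k)
    {b : Based m (fun q => PMa k (fun t => P x₀ x₀ t) (ptrivOf C hp hq).Om_mono q) B C' B0}
    (F : Free ((ptrivOf C hp hq).wang h2) b B') (j : ℕ) : F.cf (j + 1) ≠ 0 := by
  intro h
  obtain ⟨T, hT⟩ := exists_om_ne b (j + 1)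
  have hc := (ptrivOf C hp hq).c0
  have hs : 0 < max T 1 := lt_max_of_lt_right one_pos
  have ht : 0 < max T 1 + ℓ := by linarith
  refine hT _ hs (le_max_left _ _) ?_
  have h1 := F.x_om (j + 1) h (max T 1) (max T 1 + ℓ) hs ht le_rfl
  have h3 : Subsingleton (Ha (tr (ℝ →ᵇ M)) (on k) (PF x₀ (max T 1 + ℓ)) (m * (j + 1))) :=
    PF_subsingleton k x₀ ht.le (Nat.one_le_iff_ne_zero.2 (Nat.mul_ne_zero (by omega) (by omega)))
  have h4 : (F.x (j + 1)).z (max T 1 + ℓ) ht = 0 := h3.elim _ _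
  rw [h4, map_zero, map_zero] at h1
  exact h1.symm

end

/-! ### The class `om 0` -/

section One

variable {E : Type} [PseudoMetricSpace E] (k : Type) [Field k]

/-- The constant cochain `1` is a cocycle. -/
theorem one_mem (X : Set E) : (fun _ => (1 : k)) ∈
    Zc (Cc (tr E) (on k) X) (Zr (tr E) (on k) X X) 0 := by
  rw [mem_Zc_abs]
  exact ⟨fun i => i.elim, 1, one_pos, fun x _ => by simp [P265.AS.d]⟩

/-- The class of the constant `1`. -/
def one0 (X : Set E) : Ha (tr E) (on k) X 0 := H.mk (fun _ => (1 : k)) (one_mem k X)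

theorem one0_ne {X : Set E} (hX : X.Nonempty) : one0 k X ≠ 0 := by
  intro h
  obtain ⟨p, hp⟩ := hX
  unfold one0 at h
  rw [H.mk_eq_zero, mem_Bc_zero] at h
  obtain ⟨-, ε, hε, h1⟩ := h
  have h2 := h1 (fun _ => p) ⟨fun _ => hp, fun _ _ => by
    rw [dist_self]
    exact hε⟩
  exact one_ne_zero h2

/-- The family of the constants `1`. -/
def oneF (A : ℝ → Set E) (hA : Mono A) : (PMa k A hA 0).Fam where
  z t _ := one0 k (A t)
  comp _ _ _ _ := rfl

variable {k}

/-- **Self maps fix the generator of the stable cohomology of degree `0`.** -/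
theorem opa_zero {A : ℝ → Set E} (hA : Mono A) (hne : ∀ t, 0 < t → (A t).Nonempty)
    (R : SpOp A (fun _ => ∅)) (o : (PMa k A hA 0).Fam) {B : ℝ} (hB : 0 ≤ B)
    (ho : (PMa k A hA 0).Line o B) (t : ℝ) (ht : 0 < t) :
    (R.opa k hA 0).r t ht (o.z t ht) = o.z t ht := by
  obtain ⟨a, ha⟩ := ho.fam hB (oneF k A hA)
  have ha0 : a ≠ 0 := by
    rintro rfl
    have h1 := ha t ht
    rw [zero_smul] at h1
    exact one0_ne k (hne t ht) h1
  have h1 : (R.opa k hA 0).r t ht ((oneF k A hA).z t ht) = (oneF k A hA).z t ht := rfl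
  rw [ha t ht, map_smul] at h1
  exact smul_right_injective _ ha0 h1

end One

variable {M : Type} [MetricSpace M] {x₀ : M} {m : ℕ} {k : Type} [Field k] {B C' B0 : ℝ}

/-- **The reversal fixes `om 0`.** -/
theorem theta0 {hOm : Mono fun t => P x₀ x₀ t}
    (b : Based m (fun q => PMa k (fun t => P x₀ x₀ t) hOm q) B C' B0) (hB : 0 ≤ B) (t : ℝ)
    (ht : 0 < t) : ((opP x₀).opa k hOm (m * 0)).r t ht ((b.om 0).z t ht) = (b.om 0).z t ht := by
  refine opa_zero hOm (fun s hs => ⟨BoundedContinuousFunction.const ℝ x₀, fun u v => ?_,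
    fun _ _ => rfl, fun _ _ => rfl⟩) (opP x₀) (b.om 0) hB (b.line 0) t ht
  simp

end Vale.Agent.P216.Ch2.H754B
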