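import Vale.Agent.P216.Ch2.Ns
import Vale.Agent.P216.Ch2.H962.Fin
import Vale.Agent.P216.Ch2.H388.Spur3
import Vale.Agent.P216.Ch2.H754B.Sg
import Vale.Agent.P216.B64.SCS

/-!
# Characteristic `2`: the reversal is the identity on the classes of the based loops, and the
structure constants of the free loops vanish
-/

open Set BoundedContinuousFunction

namespace Vale.Agent.P216.Ch2.H754B

open Vale.Agent.P216.AS Vale.Agent.P216.Ch2.AS Vale.Agent.P216.Ch2.H901 Vale.Agent.P216.PS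
open Vale.Agent.P216.MV337 Vale.Agent.P216.Ch2.MV337
open Vale.Agent.P216.Ch2.H456 Vale.Agent.P216.B64

/-- **Characteristic `2`.** -/
theorem sign2 {m : ℕ} (hm2 : 2 ≤ m) {M : Type} [MetricSpace M] [CompactSpace M] {ρ : ℝ}
    (hρ : 0 < ρ) (hU : LS.UniqSeg M ρ)
    (he : Nonempty (M ≃ₜ Metric.sphere (0 : EuclideanSpace ℝ (Fin (m + 1 + 1))) 1)) {x₀ : M}
    (C : Caps (m + 1) M x₀) {ℓ : ℝ} {Tp Tm : M → ℝ → M} (hp : MV337.Tr C.Dp x₀ ℓ Tp)
    (hm : MV337.Tr C.Dm x₀ ℓ Tm) {k : Type} [Field k] (hk : (2 : k) = 0) (h2 : Ok k)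
    {B C' B0 B' : ℝ} (hB : 0 ≤ B) (hC' : 0 ≤ C')
    (β : Based m (fun q => PMa k (fun t => P x₀ x₀ t) (trivOf C hp hm).Om_mono q) B C' B0)
    (F : Free ((trivOf C hp hm).wang h2) β B') :
    (∀ j t ht, ((opP x₀).opa k (trivOf C hp hm).Om_mono (m * j)).r t ht ((β.om j).z t ht) =
      (β.om j).z t ht) ∧ ∀ j, F.cf j = 0 := by
  have hm1 : 1 ≤ m := by omega
  obtain ⟨eh⟩ := he
  have : SimplyConnectedSpace (Metric.sphere (0 : EuclideanSpace ℝ (Fin (m + 1 + 1))) 1) :=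
    simplyConnected_sph (m + 1) (by omega)
  have : SimplyConnectedSpace M := simplyConnected_of_homeo eh
  obtain ⟨D, b, hC⟩ := exists_coll m
  obtain ⟨lam, hne, hlam⟩ := exists_lam h2 hm1 hp hm hC hm2 hB hC' β
  obtain ⟨K, hK, hw⟩ := H388.exists_wait_pull' hρ hU hm1 hp hm hC
  obtain ⟨h1, h3⟩ := H962.signs h2 hm1 hp hm hC hB β lam hlam hK
    (fun t ht q z => (hw k t ht.le q z).1) (fun t ht q z => (hw k t ht.le q z).2) hk
  refine ⟨h1, fun j => ?_⟩
  cases j with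
  | zero => exact F.cf0
  | succ j =>
    obtain ⟨T, hT⟩ := exists_om_ne β j
    have hl := hp.nonneg
    have ht : 0 < max T 1 := lt_max_of_lt_right one_pos
    have ht' : 0 < max T 1 + 2 * ℓ + 2 * ℓ := by linarith
    have e1 := cf_smul_om h2 hm1 hp hm hC F j (max T 1) ht ht'
    have e2 := h3 j (max T 1) ht ht'
    have e3 : F.cf (j + 1) • (β.om j).z (max T 1) ht = 0 := e1.trans e2
    rcases smul_eq_zero.1 e3 with h | h
    · exact h
    · exact absurd h (hT _ ht (le_max_left _ _))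

end Vale.Agent.P216.Ch2.H754B
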